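import Vale.Agent.P365.T2.Gen963
import Vale.Agent.P365.T2.H963.ContUps
import Vale.Agent.P365.T2.H878.Ups
import Vale.Agent.P365.T2.UpsBd844

/-!
# P365 T2, X-UFLOW: the flow of the truncated one-body entropy, average form

`U(τ) = Av Ups` for the position field of a finite family `F`.  `dU_gen`: from 963's master identity,
878's `LL_ups` and 844's `ups_gen`,

`U' ≥ (1/2) Av Pos - 65 Phi - (T+2) √(2 Phi Loss) - (T+2) Share + ErrU`

where `ErrU` is the law error of the master identity (one literal term).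
-/

set_option autoImplicit false
set_option linter.all false

namespace P365T2.H509

open P365L P365T1 P365O Vale.Agent.P365.J376 P365H878 P365L.T2.Path P365T2.H844
open Matrix Complex MeasureTheory Filter Topology Set
open P365T2.H37 (wk rho)
open scoped RealInnerProductSpace ComplexConjugate

/-! ### pointwise -/

section pt

variable {X : Type*} [NormedAddCommGroup X] [InnerProductSpace ℝ X]
variable {ι : Type*} [Fintype ι] [DecidableEq ι] {Φ : ι → X} {A : Matrix ι ι ℝ} {W : ι → ℂ}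

/-- **the local generator of the entropy** -/
theorem LL_Ups (hA : A.IsSymm) {ε : ℝ} (hε : 0 < ε) (J : ℕ) (y : ι) (hW : W ∈ LH ι) :
    LL A (fun W => Ups Φ A W ε J) y W =
      -∑ x, ∑ k ∈ Finset.range (J + 2), LLU Φ A W ε J k y x := by
  have h1 : ∀ x : ι, ∀ k : ℕ, ContDiffOn ℝ 2 (fun W : ι → ℂ => P365T2.H37.rho k *
      pr (P365T2.H844.TT A W) x * Gf ε (ur Φ (P365T2.H844.TT A W) J k x)) (Om ι) :=
    fun x k => contDiffOn_ups_term hA J k x hε
  have h2 : ∀ x : ι, ContDiffOn ℝ 2 (fun W : ι → ℂ => ∑ k ∈ Finset.range (J + 2),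
      P365T2.H37.rho k * pr (P365T2.H844.TT A W) x *
        Gf ε (ur Φ (P365T2.H844.TT A W) J k x)) (Om ι) :=
    fun x => ContDiffOn.sum fun k _ => h1 x k
  have e1 : LL A (fun W => Ups Φ A W ε J) y W = LL A (fun W => (-1 : ℝ) *
      ∑ x, ∑ k ∈ Finset.range (J + 2), P365T2.H37.rho k * pr (P365T2.H844.TT A W) x *
        Gf ε (ur Φ (P365T2.H844.TT A W) J k x)) y W := by
    refine LL_congr (fun W' _ => ?_) y hW
    unfold Ups
    ring
  rw [e1, LL_const_mul hA (ContDiffOn.sum fun x _ => h2 x) (-1) y hW,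
    LL_sum hA (fun x _ => h2 x) y hW, neg_one_mul]
  congr 1
  refine Finset.sum_congr rfl fun x _ => ?_
  rw [LL_sum hA (fun k _ => h1 x k) y hW]
  exact Finset.sum_congr rfl fun k _ => LL_ups hA hε J k x y hW

end pt

section fam

variable {κ : Type*} [Fintype κ] {ι : Type*} [Fintype ι] [DecidableEq ι] {F : κ → ι → ℝ}
  {A : Matrix ι ι ℝ} {W : ι → ℂ}

/-- `pi_v V_v = e_v Σ_k M_v(F_k)` -/
theorem pr_Vr_Mf (hA : A.IsSymm) (hW : ∀ x, (W x).im < 0) (v : ι) :
    pr (P365T2.H844.TT A W) v * Vr (fam F) (P365T2.H844.TT A W) v =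
      (-(W v).im) * ∑ k, Mf A W (F k) v := by
  rw [pr_Vr (pr_TT_pos hA hW) v]
  unfold Mf
  rw [Finset.sum_comm, Finset.mul_sum]
  refine Finset.sum_congr rfl fun y _ => ?_
  rw [tt_fam]
  unfold P365T2.H844.TT
  rw [← Finset.mul_sum]
  ring

/-- the moving loss of one site -/
theorem om_loss (hA : A.IsSymm) (hW : ∀ x, (W x).im < 0) (v : ι) {w : ℝ} :
    w / (-(W v).im) * pr (P365T2.H844.TT A W) v *
        ‖mur (fam F) (P365T2.H844.TT A W) v‖ ^ 2 =
      (1 / 2) * (w * ∑ k, lossS A W (F k) v) := by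
  have he : (-(W v).im) ≠ 0 := by have := hW v; intro h; linarith
  rw [mur_fam hA hW, pr_TT hA hW]
  unfold lossS
  rw [← Finset.mul_sum, ← Finset.mul_sum, ← mul_assoc (w / (-(W v).im)), div_mul_cancel₀ _ he]
  ring

/-- **the pointwise drift over a family**, literal loss and share -/
theorem drift_fam (hA : A.IsSymm) (hW : ∀ x, (W x).im < 0) {T : ℝ} (hT : 0 ≤ T) {J : ℕ}
    (hJ : 1 ≤ J) (ht : ∀ x y, tt (fam F) x y = 0 ∨ 1 ≤ tt (fam F) x y)
    (ht4 : ∀ x y, tt (fam F) x y ≤ 4 ^ J) {u w : ι → ℝ} (hu : ∀ x, 0 ≤ u x)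
    (hw : ∀ x, 0 ≤ w x) (he : ∀ x, -(W x).im = u x + w x) {c : ℝ} (hc : 0 < c) :
    (1 / 2) * Pos (fam F) (P365T2.H844.TT A W) (Real.exp (-T)) J - 65 * ∑ k, En A W (F k) -
      (T + 2) * (c * ∑ k, En A W (F k) +
        c⁻¹ * ((1 / 2) * ∑ x, w x * ∑ k, lossS A W (F k) x)) -
      (T + 2) * ∑ x, u x * ∑ k, Mf A W (F k) x ≤
    ∑ y, w y / (-(W y).im) * LL A (fun W => Ups (fam F) A W (Real.exp (-T)) J) y W := by
  have hpos : ∀ x, 0 < -(W x).im := fun x => by linarith [hW x]
  set om : ι → ℝ := fun y => w y / (-(W y).im) with hom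
  have ho : ∀ x, 0 ≤ om x := fun x => div_nonneg (hw x) (hpos x).le
  have ho1 : ∀ x, om x ≤ 1 := fun x => by
    rw [hom]
    simp only
    rw [div_le_one (hpos x), he x]
    linarith [hu x]
  have h := ups_gen (Φ := fam F) hA hW hT hJ ht ht4 ho ho1
  have e1 : ∑ y, w y / (-(W y).im) * LL A (fun W => Ups (fam F) A W (Real.exp (-T)) J) y W =
      -∑ y, om y * ∑ x, ∑ k ∈ Finset.range (J + 2),
        LLU (fam F) A W (Real.exp (-T)) J k y x := by
    rw [← Finset.sum_neg_distrib]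
    refine Finset.sum_congr rfl fun y _ => ?_
    rw [LL_Ups hA (Real.exp_pos _) J y hW, mul_neg]
  rw [e1]
  refine le_trans ?_ h
  rw [sum_pr_Vr_fam hA hW F]
  have e2 : ∑ v, (1 - om v) * pr (P365T2.H844.TT A W) v * Vr (fam F) (P365T2.H844.TT A W) v =
      ∑ x, u x * ∑ k, Mf A W (F k) x := by
    refine Finset.sum_congr rfl fun v _ => ?_
    rw [mul_assoc, pr_Vr_Mf hA hW v, ← mul_assoc]
    congr 1
    rw [hom]
    simp only
    have := (hpos v).ne'
    rw [sub_mul, one_mul, div_mul_cancel₀ _ this, he v]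
    ring
  have e3 : ∑ v, om v * pr (P365T2.H844.TT A W) v *
      ‖mur (fam F) (P365T2.H844.TT A W) v‖ ^ 2 =
      (1 / 2) * ∑ x, w x * ∑ k, lossS A W (F k) x := by
    rw [Finset.mul_sum]
    exact Finset.sum_congr rfl fun v _ => om_loss hA hW v
  have e4 : ∑ v, om v * pr (P365T2.H844.TT A W) v * Vr (fam F) (P365T2.H844.TT A W) v ≤
      ∑ k, En A W (F k) := by
    rw [← sum_pr_Vr_fam hA hW F]
    refine Finset.sum_le_sum fun v _ => ?_
    refine mul_le_mul_of_nonneg_right ?_ (Vr_nonneg (P365T2.H844.TT_nonneg hW) (pr_TT_pos hA hW) v)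
    exact mul_le_of_le_one_left (pr_TT_pos hA hW v).le (ho1 v)
  rw [e2, e3]
  set a := ∑ v, om v * pr (P365T2.H844.TT A W) v * Vr (fam F) (P365T2.H844.TT A W) v with ha
  set b := (1 / 2) * ∑ x, w x * ∑ k, lossS A W (F k) x with hb
  have ha0 : 0 ≤ a := Finset.sum_nonneg fun v _ => mul_nonneg
    (mul_nonneg (ho v) (pr_TT_pos hA hW v).le) (Vr_nonneg (P365T2.H844.TT_nonneg hW) (pr_TT_pos hA hW) v)
  have hb0 : 0 ≤ b := by
    rw [hb]
    refine mul_nonneg (by norm_num) (Finset.sum_nonneg fun x _ => mul_nonneg (hw x)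
      (Finset.sum_nonneg fun k _ => lossS_nonneg hA hW _ _))
  have h5 : 2 * (Real.sqrt a * Real.sqrt b) ≤ c * ∑ k, En A W (F k) + c⁻¹ * b := by
    have h6 := Real.sq_sqrt ha0
    have h7 := Real.sq_sqrt hb0
    have h8 : 2 * (Real.sqrt a * Real.sqrt b) ≤ c * a + c⁻¹ * b := by
      have h9 : 0 ≤ c⁻¹ * (c * Real.sqrt a - Real.sqrt b) ^ 2 := by positivity
      have h10 : c⁻¹ * (c * Real.sqrt a - Real.sqrt b) ^ 2 =
          c * Real.sqrt a ^ 2 - 2 * (Real.sqrt a * Real.sqrt b) + c⁻¹ * Real.sqrt b ^ 2 := by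
        field_simp
        ring
      rw [h10, h6, h7] at h9
      linarith
    have := mul_le_mul_of_nonneg_left e4 hc.le
    linarith
  have h6 := mul_le_mul_of_nonneg_left h5 (by linarith : (0 : ℝ) ≤ T + 2)
  linarith

end fam

/-! ### averages -/

/-- optimisation of Young's inequality -/
theorem le_two_sqrt {X a b : ℝ} (ha : 0 ≤ a) (hb : 0 ≤ b) (h : ∀ c : ℝ, 0 < c → X ≤ c * a + c⁻¹ * b) :
    X ≤ 2 * Real.sqrt (a * b) := by
  rcases ha.eq_or_lt with h0 | h0
  · subst h0
    rw [zero_mul, Real.sqrt_zero, mul_zero]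
    by_contra hc
    push Not at hc
    have h1 := h ((b + 1) / (X / 2)) (by positivity)
    rw [mul_zero, zero_add, inv_div, div_mul_eq_mul_div, le_div_iff₀ (by positivity)] at h1
    nlinarith
  rcases hb.eq_or_lt with h1 | h1
  · subst h1
    rw [mul_zero, Real.sqrt_zero, mul_zero]
    by_contra hc
    push Not at hc
    have h2 := h ((X / 2) / a) (by positivity)
    rw [mul_zero, add_zero, div_mul_cancel₀ _ h0.ne'] at h2
    linarith
  · have hsa : 0 < Real.sqrt a := Real.sqrt_pos.2 h0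
    have hsb : 0 < Real.sqrt b := Real.sqrt_pos.2 h1
    have h2 := h (Real.sqrt b / Real.sqrt a) (by positivity)
    refine h2.trans (le_of_eq ?_)
    rw [Real.sqrt_mul ha]
    have e1 : a = Real.sqrt a ^ 2 := (Real.sq_sqrt ha).symm
    have e2 : b = Real.sqrt b ^ 2 := (Real.sq_sqrt hb).symm
    calc Real.sqrt b / Real.sqrt a * a + (Real.sqrt b / Real.sqrt a)⁻¹ * b
        = Real.sqrt b / Real.sqrt a * Real.sqrt a ^ 2 +
          (Real.sqrt b / Real.sqrt a)⁻¹ * Real.sqrt b ^ 2 := by rw [← e1, ← e2]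
      _ = _ := by field_simp; ring

section avg

variable {κ : Type*} [Fintype κ] {ι : Type*} [Fintype ι] [DecidableEq ι]
  {A : Matrix ι ι ℝ} {Λ : Type*} [Fintype Λ] {p : Λ → ℝ} {ν : Λ → Measure ℝ} {E : ℝ}
  {F : κ → ι → ℝ} {u w : (ι → Λ) → ι → ℝ}

variable (A p ν E F u w) in
/-- the entropy at time `τ` -/
noncomputable def UG (T : ℝ) (J : ℕ) (τ : ℝ) : ℝ :=
  AvG p ν E (eT u w τ) fun _ V => Ups (fam F) A V (Real.exp (-T)) J

variable (A p ν E F u w) in
/-- its gain -/
noncomputable def PosG (T : ℝ) (J : ℕ) (τ : ℝ) : ℝ :=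
  AvG p ν E (eT u w τ) fun _ V => Pos (fam F) (P365T2.H844.TT A V) (Real.exp (-T)) J

variable (A p ν E F u w) in
/-- content of the static absorption -/
noncomputable def ShG (τ : ℝ) : ℝ :=
  AvG p ν E (eT u w τ) fun l V => ∑ x, u l x * ∑ k, Mf A V (F k) x

variable (A p ν E F u w) in
/-- **the law error of the entropy** (963's master identity), `rd` = derivative of the density -/
noncomputable def ErrU (rd : Λ → ℝ → ℝ) (T : ℝ) (J : ℕ) (τ : ℝ) : ℝ :=
  ∑ l : ι → Λ, (∏ x, p (l x)) * ∑ x, omT u w τ l x *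
    ErrF A (fun x => ν (l x)) E (eT u w τ l) (rd (l x))
      (fun V => Ups (fam F) A V (Real.exp (-T)) J) x

/-- `|U| ≤ (T + 2) Phi` -/
theorem abs_UG_le (hA : A.IsSymm) [∀ k, IsProbabilityMeasure (ν k)] (hp : ∀ k, 0 ≤ p k) {R : ℝ}
    (hR : ∀ k, ν k (Icc (-R) R)ᶜ = 0) (hu : ∀ l x, 0 < u l x) (hw : ∀ l x, 0 ≤ w l x) {T : ℝ}
    (hT : 0 ≤ T) {J : ℕ} (ht4 : ∀ x y, tt (fam F) x y ≤ 4 ^ J) (τ : ℝ) :
    |UG A p ν E F u w T J τ| ≤ (T + 2) * PhiG A p ν E F (eT u w τ) := by
  have hpos : ∀ l x, 0 < eT u w τ l x := fun l x => by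
    unfold eT
    have := mul_nonneg (Real.exp_pos (-τ)).le (hw l x)
    linarith [hu l x]
  have hcU : ContinuousOn (fun V : ι → ℂ => Ups (fam F) A V (Real.exp (-T)) J) (LH ι) :=
    (contDiffOn_Ups (n := 0) hA J (Real.exp_pos _)).continuousOn
  have hcE : ContinuousOn (fun V : ι → ℂ => ∑ k, En A V (F k)) (LH ι) :=
    (ContDiffOn.sum (n := 0) fun k _ => contDiffOn_En hA (F k)).continuousOn
  unfold UG PhiG AvG
  rw [Finset.mul_sum]
  refine (Finset.abs_sum_le_sum_abs _ _).trans (Finset.sum_le_sum fun l _ => ?_)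
  have hP : 0 ≤ ∏ x, p (l x) := Finset.prod_nonneg fun x _ => hp _
  rw [abs_mul, abs_of_nonneg hP, mul_left_comm]
  refine mul_le_mul_of_nonneg_left ?_ hP
  unfold Ex
  rw [← integral_const_mul]
  refine (abs_integral_le_integral_abs).trans ?_
  refine integral_mono (integrable_of_continuousOn hcU (fun x => hR (l x)) (hpos l)).abs
    ((integrable_of_continuousOn hcE (fun x => hR (l x)) (hpos l)).const_mul _) fun v => ?_
  have hW : ∀ x, (WV E (eT u w τ l) v x).im < 0 := WV_mem_LH (hpos l) v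
  have h := abs_Ups_le (Φ := fam F) hA hW hT (J := J) ht4
  rw [sum_pr_Vr_fam hA hW F] at h
  exact h

/-- **the flow of the entropy**; the law error `ErrU` is one literal term -/
theorem dU_gen (hA : A.IsSymm) [∀ k, IsProbabilityMeasure (ν k)] (hp : ∀ k, 0 ≤ p k) {R : ℝ}
    (hR : ∀ k, ν k (Icc (-R) R)ᶜ = 0) (hu : ∀ l x, 0 < u l x) (hw : ∀ l x, 0 ≤ w l x)
    {r rd : Λ → ℝ → ℝ} (hsm : ∀ l x, w l x ≠ 0 → SmLaw (ν (l x)) (r (l x)) (rd (l x)))
    {T : ℝ} (hT : 0 ≤ T) {J : ℕ} (hJ : 1 ≤ J)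
    (ht : ∀ x y, tt (fam F) x y = 0 ∨ 1 ≤ tt (fam F) x y)
    (ht4 : ∀ x y, tt (fam F) x y ≤ 4 ^ J) (τ : ℝ) :
    ∃ d, HasDerivAt (UG A p ν E F u w T J) d τ ∧
      (1 / 2) * PosG A p ν E F u w T J τ - 65 * PhiG A p ν E F (eT u w τ) -
        (T + 2) * (2 * Real.sqrt (PhiG A p ν E F (eT u w τ) *
          ((1 / 2) * LossG A p ν E F (eT u w τ) (wT w τ)))) -
        (T + 2) * ShG A p ν E F u w τ + ErrU A p ν E F u w rd T J τ ≤ d := by
  have hpos : ∀ l x, 0 < eT u w τ l x := fun l x => by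
    unfold eT
    have := mul_nonneg (Real.exp_pos (-τ)).le (hw l x)
    linarith [hu l x]
  have hF : ∀ l : ι → Λ, ContDiffOn ℝ 2 (fun V : ι → ℂ => Ups (fam F) A V (Real.exp (-T)) J)
      (LH ι) := fun _ => contDiffOn_Ups hA J (Real.exp_pos _)
  have hm := master (p := p) (E := E) hA (F := fun _ V => Ups (fam F) A V (Real.exp (-T)) J)
    hF hR hu hw hsm τ
  refine ⟨_, hm, ?_⟩
  -- continuity
  have hcP : ContinuousOn (fun V : ι → ℂ =>
      Pos (fam F) (P365T2.H844.TT A V) (Real.exp (-T)) J) (LH ι) :=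
    (contDiffOn_Pos (n := 0) hA J (Real.exp_pos _)).continuousOn
  have hcE : ContinuousOn (fun V : ι → ℂ => ∑ k, En A V (F k)) (LH ι) :=
    (ContDiffOn.sum (n := 0) fun k _ => contDiffOn_En hA (F k)).continuousOn
  have hcl : ∀ k x, ContinuousOn (fun V : ι → ℂ => lossS A V (F k) x) (LH ι) := fun k x => by
    unfold lossS
    exact (contDiffOn_const.mul ((P365L.T2.Path.contDiffOn_mm (n := 0) hA x).mul
      ((contDiffOn_muf hA (F k) x).pow 2))).continuousOn
  have hcL : ∀ l : ι → Λ, ContinuousOn (fun V : ι → ℂ =>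
      ∑ x, wT w τ l x * ∑ k, lossS A V (F k) x) (LH ι) := fun l =>
    continuousOn_finset_sum _ fun x _ => continuousOn_const.mul
      (continuousOn_finset_sum _ fun k _ => hcl k x)
  have hcM : ∀ l : ι → Λ, ContinuousOn (fun V : ι → ℂ => ∑ x, u l x * ∑ k, Mf A V (F k) x)
      (LH ι) := fun l => (ContDiffOn.sum (n := 0) fun x _ => contDiffOn_const.mul
        (ContDiffOn.sum fun k _ => contDiffOn_Mf hA (F k) x)).continuousOn
  have hcLL : ∀ x, ContinuousOn (LL A (fun V => Ups (fam F) A V (Real.exp (-T)) J) x) (LH ι) :=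
    fun x => continuousOn_LL hA (contDiffOn_Ups hA J (Real.exp_pos _)) x
  -- the sum splits
  have e1 : ∑ l : ι → Λ, (∏ x, p (l x)) * ∑ x, omT u w τ l x *
      (Ex (fun x => ν (l x)) E (eT u w τ l)
        (LL A (fun V => Ups (fam F) A V (Real.exp (-T)) J) x) +
        ErrF A (fun x => ν (l x)) E (eT u w τ l) (rd (l x))
          (fun V => Ups (fam F) A V (Real.exp (-T)) J) x) =
      (∑ l : ι → Λ, (∏ x, p (l x)) * ∑ x, omT u w τ l x *
        Ex (fun x => ν (l x)) E (eT u w τ l)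
          (LL A (fun V => Ups (fam F) A V (Real.exp (-T)) J) x)) +
      ErrU A p ν E F u w rd T J τ := by
    unfold ErrU
    rw [← Finset.sum_add_distrib]
    refine Finset.sum_congr rfl fun l _ => ?_
    rw [← mul_add, ← Finset.sum_add_distrib]
    congr 1
    exact Finset.sum_congr rfl fun x _ => by ring
  rw [e1]
  have hloss : LossG A p ν E F (eT u w τ) (wT w τ) =
      AvG p ν E (eT u w τ) fun l V => ∑ x, wT w τ l x * ∑ k, lossS A V (F k) x := by
    unfold LossG AvG
    refine Finset.sum_congr rfl fun l _ => ?_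
    congr 1
    unfold Ex
    have i1 : ∀ x k, Integrable (fun v => lossS A (WV E (eT u w τ l) v) (F k) x)
        (Measure.pi fun x => ν (l x)) := fun x k =>
      integrable_of_continuousOn (hcl k x) (fun x => hR (l x)) (hpos l)
    rw [integral_finset_sum _ fun x _ => (integrable_finset_sum _ fun k _ => i1 x k).const_mul _]
    refine Finset.sum_congr rfl fun x _ => ?_
    rw [integral_const_mul, integral_finset_sum _ fun k _ => i1 x k]
  -- Young form
  have hY : ∀ c : ℝ, 0 < c → (1 / 2) * PosG A p ν E F u w T J τ -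
      65 * PhiG A p ν E F (eT u w τ) -
      (T + 2) * (c * PhiG A p ν E F (eT u w τ) +
        c⁻¹ * ((1 / 2) * LossG A p ν E F (eT u w τ) (wT w τ))) -
      (T + 2) * ShG A p ν E F u w τ ≤
      ∑ l : ι → Λ, (∏ x, p (l x)) * ∑ x, omT u w τ l x *
        Ex (fun x => ν (l x)) E (eT u w τ l)
          (LL A (fun V => Ups (fam F) A V (Real.exp (-T)) J) x) := by
    intro c hc
    rw [hloss]
    unfold PosG PhiG ShG AvG
    have e2 : (1 / 2) * (∑ l : ι → Λ, (∏ x, p (l x)) * Ex (fun x => ν (l x)) E (eT u w τ l)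
          (fun V => Pos (fam F) (P365T2.H844.TT A V) (Real.exp (-T)) J)) -
        65 * (∑ l : ι → Λ, (∏ x, p (l x)) * Ex (fun x => ν (l x)) E (eT u w τ l)
          (fun V => ∑ k, En A V (F k))) -
        (T + 2) * (c * (∑ l : ι → Λ, (∏ x, p (l x)) * Ex (fun x => ν (l x)) E (eT u w τ l)
          (fun V => ∑ k, En A V (F k))) +
          c⁻¹ * ((1 / 2) * (∑ l : ι → Λ, (∏ x, p (l x)) *
            Ex (fun x => ν (l x)) E (eT u w τ l)
              (fun V => ∑ x, wT w τ l x * ∑ k, lossS A V (F k) x)))) -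
        (T + 2) * (∑ l : ι → Λ, (∏ x, p (l x)) * Ex (fun x => ν (l x)) E (eT u w τ l)
          (fun V => ∑ x, u l x * ∑ k, Mf A V (F k) x)) =
        ∑ l : ι → Λ, (∏ x, p (l x)) *
          ((1 / 2) * Ex (fun x => ν (l x)) E (eT u w τ l)
              (fun V => Pos (fam F) (P365T2.H844.TT A V) (Real.exp (-T)) J) -
            65 * Ex (fun x => ν (l x)) E (eT u w τ l) (fun V => ∑ k, En A V (F k)) -
            (T + 2) * (c * Ex (fun x => ν (l x)) E (eT u w τ l) (fun V => ∑ k, En A V (F k)) +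
              c⁻¹ * ((1 / 2) * Ex (fun x => ν (l x)) E (eT u w τ l)
                (fun V => ∑ x, wT w τ l x * ∑ k, lossS A V (F k) x))) -
            (T + 2) * Ex (fun x => ν (l x)) E (eT u w τ l)
              (fun V => ∑ x, u l x * ∑ k, Mf A V (F k) x)) := by
      simp only [Finset.mul_sum]
      rw [← Finset.sum_sub_distrib]
      simp only [← Finset.sum_add_distrib, Finset.mul_sum]
      rw [← Finset.sum_sub_distrib, ← Finset.sum_sub_distrib]
      exact Finset.sum_congr rfl fun l _ => by ring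
    rw [e2]
    refine Finset.sum_le_sum fun l _ => mul_le_mul_of_nonneg_left ?_
      (Finset.prod_nonneg fun x _ => hp _)
    have iP := integrable_of_continuousOn (E := E) hcP (fun x => hR (l x)) (hpos l)
    have iE := integrable_of_continuousOn (E := E) hcE (fun x => hR (l x)) (hpos l)
    have iL := integrable_of_continuousOn (E := E) (hcL l) (fun x => hR (l x)) (hpos l)
    have iM := integrable_of_continuousOn (E := E) (hcM l) (fun x => hR (l x)) (hpos l)
    have iLL := fun x => integrable_of_continuousOn (E := E) (hcLL x) (fun x => hR (l x)) (hpos l)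
    unfold Ex
    have e3 : ∑ x, omT u w τ l x * ∫ v, LL A (fun V => Ups (fam F) A V (Real.exp (-T)) J) x
        (WV E (eT u w τ l) v) ∂(Measure.pi fun x => ν (l x)) =
        ∫ v, ∑ x, omT u w τ l x * LL A (fun V => Ups (fam F) A V (Real.exp (-T)) J) x
        (WV E (eT u w τ l) v) ∂(Measure.pi fun x => ν (l x)) := by
      rw [integral_finset_sum _ fun x _ => (iLL x).const_mul _]
      exact Finset.sum_congr rfl fun x _ => (integral_const_mul _ _).symm
    rw [e3]
    set P1 : (ι → ℝ) → ℝ := fun v => Pos (fam F)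
      (P365T2.H844.TT A (WV E (eT u w τ l) v)) (Real.exp (-T)) J with hP1
    set E1 : (ι → ℝ) → ℝ := fun v => ∑ k, En A (WV E (eT u w τ l) v) (F k) with hE1
    set L1 : (ι → ℝ) → ℝ := fun v => ∑ x, wT w τ l x *
      ∑ k, lossS A (WV E (eT u w τ l) v) (F k) x with hL1
    set M1 : (ι → ℝ) → ℝ := fun v => ∑ x, u l x *
      ∑ k, Mf A (WV E (eT u w τ l) v) (F k) x with hM1
    have j1 : Integrable (fun v => (1 / 2) * P1 v) (Measure.pi fun x => ν (l x)) :=
      iP.const_mul _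
    have j2 : Integrable (fun v => 65 * E1 v) (Measure.pi fun x => ν (l x)) := iE.const_mul _
    have j3 : Integrable (fun v => c * E1 v) (Measure.pi fun x => ν (l x)) := iE.const_mul _
    have j4 : Integrable (fun v => c⁻¹ * ((1 / 2) * L1 v)) (Measure.pi fun x => ν (l x)) :=
      (iL.const_mul _).const_mul _
    have j5 : Integrable (fun v => (T + 2) * (c * E1 v + c⁻¹ * ((1 / 2) * L1 v)))
      (Measure.pi fun x => ν (l x)) := (j3.add j4).const_mul _
    have j6 : Integrable (fun v => (T + 2) * M1 v) (Measure.pi fun x => ν (l x)) :=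
      iM.const_mul _
    have j7 : Integrable (fun v => (1 / 2) * P1 v - 65 * E1 v) (Measure.pi fun x => ν (l x)) :=
      j1.sub j2
    have j8 : Integrable (fun v => (1 / 2) * P1 v - 65 * E1 v -
      (T + 2) * (c * E1 v + c⁻¹ * ((1 / 2) * L1 v))) (Measure.pi fun x => ν (l x)) := j7.sub j5
    have e4 : ∫ v, ((1 / 2) * P1 v - 65 * E1 v - (T + 2) * (c * E1 v + c⁻¹ * ((1 / 2) * L1 v)) -
        (T + 2) * M1 v) ∂(Measure.pi fun x => ν (l x)) =
        (1 / 2) * (∫ v, P1 v ∂(Measure.pi fun x => ν (l x))) -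
        65 * (∫ v, E1 v ∂(Measure.pi fun x => ν (l x))) -
        (T + 2) * (c * (∫ v, E1 v ∂(Measure.pi fun x => ν (l x))) +
          c⁻¹ * ((1 / 2) * ∫ v, L1 v ∂(Measure.pi fun x => ν (l x)))) -
        (T + 2) * ∫ v, M1 v ∂(Measure.pi fun x => ν (l x)) := by
      rw [integral_sub j8 j6, integral_sub j7 j5, integral_sub j1 j2, integral_const_mul,
        integral_const_mul, integral_const_mul, integral_const_mul, integral_add j3 j4,
        integral_const_mul, integral_const_mul, integral_const_mul]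
    rw [← e4]
    refine integral_mono (j8.sub j6) (integrable_finset_sum _ fun x _ => (iLL x).const_mul _)
      fun v => ?_
    have hW : ∀ x, (WV E (eT u w τ l) v x).im < 0 := WV_mem_LH (hpos l) v
    have he : ∀ x, -(WV E (eT u w τ l) v x).im = u l x + wT w τ l x := fun x => by
      rw [WV_im_self]
      unfold eT wT
      ring
    have hd := drift_fam (F := F) hA hW hT hJ ht ht4 (u := u l) (w := wT w τ l)
      (fun x => (hu l x).le) (fun x => mul_nonneg (Real.exp_pos _).le (hw l x)) he hc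
    refine hd.trans (le_of_eq ?_)
    refine Finset.sum_congr rfl fun x _ => ?_
    congr 1
    unfold omT
    rw [he x]
    rfl
  -- optimise
  have hPh : 0 ≤ PhiG A p ν E F (eT u w τ) := PhiG_nonneg hp fun l x => (hpos l x).le
  have hL0 : 0 ≤ LossG A p ν E F (eT u w τ) (wT w τ) :=
    LossG_nonneg hA hp hpos fun l x => mul_nonneg (Real.exp_pos _).le (hw l x)
  set S := ∑ l : ι → Λ, (∏ x, p (l x)) * ∑ x, omT u w τ l x *
        Ex (fun x => ν (l x)) E (eT u w τ l)
          (LL A (fun V => Ups (fam F) A V (Real.exp (-T)) J) x) with hS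
  have hT2 : 0 < T + 2 := by linarith
  have h1 := le_two_sqrt (X := ((1 / 2) * PosG A p ν E F u w T J τ -
      65 * PhiG A p ν E F (eT u w τ) - (T + 2) * ShG A p ν E F u w τ - S) / (T + 2))
    hPh (mul_nonneg (by norm_num : (0 : ℝ) ≤ 1 / 2) hL0) fun c hc => by
      rw [div_le_iff₀ hT2]
      have := hY c hc
      linarith
  rw [div_le_iff₀ hT2] at h1
  linarith

end avg

end P365T2.H509
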