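import Vale.Agent.P365.T2.H509.UFlow
import Vale.Agent.P365.T2.SmLaw755
import Vale.Agent.P365.T2.H24.K4
import Vale.Agent.P365.T2.H320.PhiR

/-!
# P365 T2, X-UFLOW: the flow of the entropy over a stage `StW` (213's Spec)

Position field = 320's truncated field `PhiR N J` (family `fR N J`), entropy = 844's `Ups`.
-/

set_option autoImplicit false
set_option linter.all false

namespace P365T2.H509

open P365L P365T1 P365O Vale.Agent.P365.J376 P365H878 P365L.T2.Path P365T2.H844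
open P365T2.H213 P365T2.H320U P365T2.H24 P365T1.Smooth755 P365T1.Conc
open Matrix Complex MeasureTheory Filter Topology Set
open scoped RealInnerProductSpace ComplexConjugate

variable {N : ℕ} [NeZero N]

/-- the entropy of a stage at time `τ` -/
noncomputable def US (W : StW N) (E T : ℝ) (J : ℕ) (τ : ℝ) : ℝ :=
  W.Av E τ fun _ V => Ups (PhiR N J) (AT N) V (Real.exp (-T)) J

/-- its gain -/
noncomputable def PosS (W : StW N) (E T : ℝ) (J : ℕ) (τ : ℝ) : ℝ :=
  W.Av E τ fun _ V => Pos (PhiR N J) (P365T2.H844.TT (AT N) V) (Real.exp (-T)) J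

/-- **the law error of the entropy**, smooth law with parameter `lam * tau0 / 2` -/
noncomputable def ErrUS (W : StW N) (lam E T : ℝ) (J : ℕ) (τ : ℝ) : ℝ :=
  ∑ l : Tor N → W.Λ, (∏ x, W.p (l x)) * ∑ x, omT W.u W.w τ l x *
    ErrF (AT N) (fun x => W.ν (l x)) E (eT W.u W.w τ l) (rhoSd lam (lam * tau0 / 2))
      (fun V => Ups (PhiR N J) (AT N) V (Real.exp (-T)) J) x

theorem tt_fR_or {J : ℕ} (hJ : 1 ≤ J) (x y : Tor N) :
    tt (fam (fR N J)) x y = 0 ∨ 1 ≤ tt (fam (fR N J)) x y := ttR_or hJ x y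

theorem tt_fR_le {J : ℕ} (x y : Tor N) : tt (fam (fR N J)) x y ≤ 4 ^ J := ttR_le x y

variable {W : StW N} {lam E C1 η : ℝ}

theorem u_pos' (h : W.Ok lam E C1 η) (l : Tor N → W.Λ) (x : Tor N) : 0 < W.u l x := by
  obtain ⟨b, hb, hbu⟩ := h.u_pos
  exact hb.trans_le (hbu l x)

/-- **the flow of the entropy of a stage** -/
theorem dU_core (h : W.Ok lam E C1 η) (hlam : 0 < lam) {T : ℝ} (hT : 0 ≤ T) {J : ℕ} (hJ : 1 ≤ J)
    (τ : ℝ) : ∃ d, HasDerivAt (US W E T J) d τ ∧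
      (1 / 2) * PosS W E T J τ - 65 * W.Phi E (fR N J) τ -
        (T + 2) * (2 * Real.sqrt (W.Phi E (fR N J) τ * ((1 / 2) * W.LossF E (fR N J) τ))) -
        (T + 2) * ShS W E (fR N J) τ + ErrUS W lam E T J τ ≤ d := by
  haveI := h.prob
  obtain ⟨d, hd, hd'⟩ := dU_gen (A := AT N) (p := W.p) (ν := W.ν) (E := E) (F := fR N J)
    (AT_symm N) h.p_nonneg h.supp (u_pos' h) h.w_nonneg
    (r := fun _ => rhoS lam (lam * tau0 / 2)) (rd := fun _ => rhoSd lam (lam * tau0 / 2))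
    (fun l x hw => by
      rw [h.mov l x hw]
      exact smLaw_nuS (l0_pos hlam) (l0_lt hlam)) hT hJ (tt_fR_or hJ) tt_fR_le τ
  exact ⟨d, hd, hd'⟩

/-- the entropy is bounded by the energy -/
theorem abs_US_le (h : W.Ok lam E C1 η) {T : ℝ} (hT : 0 ≤ T) (J : ℕ) (τ : ℝ) :
    |US W E T J τ| ≤ (T + 2) * W.Phi E (fR N J) τ := by
  haveI := h.prob
  exact abs_UG_le (A := AT N) (F := fR N J) (AT_symm N) h.p_nonneg h.supp (u_pos' h) h.w_nonneg
    hT tt_fR_le τ

theorem continuous_US (h : W.Ok lam E C1 η) (hlam : 0 < lam) {T : ℝ} (hT : 0 ≤ T) {J : ℕ}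
    (hJ : 1 ≤ J) : Continuous (US W E T J) :=
  continuous_iff_continuousAt.2 fun τ => by
    obtain ⟨d, hd, -⟩ := dU_core h hlam hT hJ τ
    exact hd.continuousAt

/-- the gain is nonnegative -/
theorem PosS_nonneg (h : W.Ok lam E C1 η) (T : ℝ) (J : ℕ) (τ : ℝ) : 0 ≤ PosS W E T J τ := by
  refine Finset.sum_nonneg fun l _ => mul_nonneg (Finset.prod_nonneg fun x _ => h.p_nonneg _) ?_
  exact integral_nonneg fun v => Pos_nonneg (AT_symm N)
    (WV_mem_LH (fun x => P365T2.H24.eT_pos h τ l x) v) (Real.exp_pos _) J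

end P365T2.H509
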